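import Vale.Agent.Lib.P338.Final

open Vale.Agent.P338 in
/-- Multiplying on line with delay `d` takes time of order `n * logb 2 (n / (d + logb 2 n))` on
`k`-tape machines, with a single hard odd multiplier `y` and arbitrary initial tape contents. -/
theorem Vale.Agent.Results.P338.A_delay.result (k : ℕ) (hk : 1 ≤ k) (Q Γ : Type)
    [Fintype Q] [Fintype Γ] :
    ∃ c : ℝ, 0 < c ∧ ∃ N₀ : ℕ, ∀ n, N₀ ≤ n → ∀ d : ℕ, ∃ y : ℕ, y < 2 ^ n ∧ y % 2 = 1 ∧
      ∀ (M : Machine k Q Γ) (init : Fin k → ℤ → Γ), OnlineMul M init y n d →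
        ∃ x, x < 2 ^ n ∧ ∀ t : ℕ, (t : ℝ) < c * n * Real.logb 2 (n / (d + Real.logb 2 n)) →
          (run M init (stream x y) t).out.length < n :=
  main_delay k hk Q Γ
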